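import Vale.Agent.P318.H689.Sys
import Mathlib.Analysis.Real.Pi.Bounds

/-!
# The rotation chain on the cube
-/

namespace Vale.Agent.P318.H689

open Finset Real

variable {ι : Type*} [Fintype ι] [DecidableEq ι]

/-! ### The rotated pairs -/

/-- The rotated variable `cos φ * z + sin φ * z'`. -/
noncomputable def rot (ι : Type*) (φ : ℝ) : ι → Bool × Bool → ℝ :=
  fun _ p => cos φ * sg p.1 + sin φ * sg p.2

theorem Ex_bb (f : Bool × Bool → ℝ) : Ex f =
    (f (false, false) + f (false, true) + f (true, false) + f (true, true)) / 4 := by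
  simp only [Ex, Fintype.sum_prod_type, Fintype.sum_bool, Fintype.card_prod, Fintype.card_bool]
  push_cast
  ring

omit [Fintype ι] [DecidableEq ι] in
theorem rot_good (φ : ℝ) : Good (rot ι φ) := by
  have h := sin_sq_add_cos_sq φ
  constructor <;> intro i <;> rw [Ex_bb] <;> simp only [rot, sg_false, sg_true]
  · ring
  · linear_combination h
  · ring
  · have h2 : cos φ ^ 2 ≤ 1 := by nlinarith [sq_nonneg (sin φ)]
    have h3 : sin φ ^ 2 ≤ 1 := by nlinarith [sq_nonneg (cos φ)]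
    nlinarith [sq_nonneg (cos φ), sq_nonneg (sin φ), mul_nonneg (sq_nonneg (cos φ))
      (sq_nonneg (sin φ)), mul_le_mul h2 h3 (sq_nonneg _) zero_le_one]

omit [Fintype ι] [DecidableEq ι] in
theorem rot_cov (φ ψ : ℝ) (i : ι) :
    Ex (fun y => rot ι φ i y * rot ι ψ i y) = cos (φ - ψ) := by
  rw [Ex_bb, cos_sub]
  simp only [rot, sg_false, sg_true]
  ring

theorem one_sub_pow_le (θ : ℝ) (m : ℕ) : 1 - cos θ ^ m ≤ m * (θ ^ 2 / 2) := by
  have h1 := one_add_mul_le_pow (a := cos θ - 1) (by linarith [neg_one_le_cos θ]) m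
  have h2 := one_sub_sq_div_two_le_cos (x := θ)
  have h3 : (1 : ℝ) + (cos θ - 1) = cos θ := by ring
  rw [h3] at h1
  have h4 : (m : ℝ) * (1 - cos θ) ≤ m * (θ ^ 2 / 2) :=
    mul_le_mul_of_nonneg_left (by linarith) (Nat.cast_nonneg m)
  linarith

/-- The mean square distance of the polynomial at two rotated points. -/
theorem Ex_rot_sub_sq (c : Finset ι → ℝ) (φ ψ : ℝ) :
    Ex (fun x => (ev c (pt (rot ι φ) x) - ev c (pt (rot ι ψ) x)) ^ 2) ≤
      (φ - ψ) ^ 2 * tinf c := by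
  have h1 : ∀ x : ι → Bool × Bool, (ev c (pt (rot ι φ) x) - ev c (pt (rot ι ψ) x)) ^ 2 =
      ev c (pt (rot ι φ) x) ^ 2 + ev c (pt (rot ι ψ) x) ^ 2 -
        2 * (ev c (pt (rot ι φ) x) * ev c (pt (rot ι ψ) x)) := fun x => by ring
  have h2 : Ex (fun x => ev c (pt (rot ι φ) x) * ev c (pt (rot ι ψ) x)) =
      ∑ S, c S ^ 2 * cos (φ - ψ) ^ #S := by
    have h3 := Ex_evA_mul (rot ι φ) (rot ι ψ) (rot_good φ).m1 (rot_good ψ).m1 univ c c
    simp only [evA_univ, powerset_univ, rot_cov, prod_const, ← sq] at h3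
    exact h3
  rw [Ex_congr h1, Ex_sub, Ex_add, Ex_const_mul, Ex_ev_sq (rot_good φ), Ex_ev_sq (rot_good ψ), h2,
    tinf, mul_sum, mul_sum, ← sum_add_distrib, ← sum_sub_distrib]
  refine sum_le_sum fun S _ => ?_
  have h4 := one_sub_pow_le (φ - ψ) (#S)
  nlinarith [sq_nonneg (c S)]

/-! ### The two scalar inequalities -/

theorem abs_sub_le_sq {a b : ℝ} (ha : |a| ≤ 1) (hb : |b| ≤ 1) :
    |a - b| ≤ (a - b) ^ 2 / 2 + (1 - a ^ 2) + (1 - b ^ 2) := by
  rw [abs_le] at ha hb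
  rcases le_total 0 (a - b) with h | h
  · rw [abs_of_nonneg h]
    nlinarith [mul_nonneg (sub_nonneg.2 ha.2) (by linarith [hb.1] : (0 : ℝ) ≤ 1 + b),
      sq_nonneg (a + b), mul_nonneg (sub_nonneg.2 ha.2) (sub_nonneg.2 ha.2), ha.1, hb.1, hb.2]
  · rw [abs_of_nonpos h]
    nlinarith [mul_nonneg (sub_nonneg.2 hb.2) (by linarith [ha.1] : (0 : ℝ) ≤ 1 + a),
      sq_nonneg (a + b), ha.1, hb.1, hb.2]

theorem sq_half_le_abs {a b : ℝ} (ha : |a| ≤ 1) (hb : |b| ≤ 1) : (a - b) ^ 2 / 2 ≤ |a - b| := by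
  have h : |a - b| ≤ 2 := (abs_sub _ _).trans (by linarith)
  nlinarith [abs_nonneg (a - b), sq_abs (a - b)]

/-- The function which rounds. -/
noncomputable def FF (x : ℝ) : ℝ := sin (π / 2 * x)

theorem FF_abs (x : ℝ) : |FF x| ≤ 1 := abs_sin_le_one _

theorem FF_sub_sq (x y : ℝ) : (FF x - FF y) ^ 2 ≤ π ^ 2 / 4 * (x - y) ^ 2 := by
  have h := lipschitzWith_sin.dist_le_mul (π / 2 * x) (π / 2 * y)
  rw [Real.dist_eq, Real.dist_eq, NNReal.coe_one, one_mul, ← mul_sub] at h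
  have h1 : (sin (π / 2 * x) - sin (π / 2 * y)) ^ 2 ≤ (π / 2 * (x - y)) ^ 2 := sq_le_sq.2 h
  calc _ ≤ (π / 2 * (x - y)) ^ 2 := h1
    _ = _ := by ring

theorem one_sub_FF_sq (x : ℝ) : 1 - FF x ^ 2 = (1 + cos (π * x)) / 2 := by
  have h : π * x = 2 * (π / 2 * x) := by ring
  rw [h, cos_two_mul, FF]
  have := sin_sq_add_cos_sq (π / 2 * x)
  linarith

/-! ### Marginals -/

theorem Ex_prod {A B : Type*} [Fintype A] [Fintype B] (f : A → ℝ) (g : B → ℝ) :
    Ex (fun p : A × B => f p.1 * g p.2) = Ex f * Ex g := by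
  simp only [Ex, Fintype.sum_prod_type, Fintype.card_prod, ← mul_sum, ← sum_mul]
  push_cast
  rw [div_mul_div_comm]

/-- Functions of the two halves are independent. -/
theorem Ex_halves (f g : (ι → Bool) → ℝ) :
    Ex (fun x : ι → Bool × Bool => f (fun i => (x i).1) * g (fun i => (x i).2)) =
      Ex f * Ex g := by
  rw [← Ex_prod, ← Ex_equiv (Equiv.arrowProdEquivProdArrow ι (fun _ => Bool) (fun _ => Bool))]
  rfl

theorem Ex_fst (f : (ι → Bool) → ℝ) :
    Ex (fun x : ι → Bool × Bool => f (fun i => (x i).1)) = Ex f := by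
  have h := Ex_halves f fun _ : ι → Bool => 1
  simp only [mul_one] at h
  rw [h, Ex_const, mul_one]

theorem Ex_snd (f : (ι → Bool) → ℝ) :
    Ex (fun x : ι → Bool × Bool => f (fun i => (x i).2)) = Ex f := by
  have h := Ex_halves (fun _ : ι → Bool => 1) f
  simp only [one_mul] at h
  rw [h, Ex_const, one_mul]

omit [Fintype ι] [DecidableEq ι] in
theorem pt_rot_zero (x : ι → Bool × Bool) : pt (rot ι 0) x = fun i => sg (x i).1 := by
  funext i
  simp [pt, rot]

omit [Fintype ι] [DecidableEq ι] in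
theorem pt_rot_pi_half (x : ι → Bool × Bool) : pt (rot ι (π / 2)) x = fun i => sg (x i).2 := by
  funext i
  simp [pt, rot]

/-! ### The chain -/

/-- The rounded polynomial is Boolean up to `etaP`. -/
noncomputable def etaP (c : Finset ι → ℝ) : ℝ :=
  Ex fun z : ι → Bool => 1 - FF (ev c fun i => sg (z i)) ^ 2

/-- The mean of the rounded polynomial. -/
noncomputable def muP (c : Finset ι → ℝ) : ℝ := Ex fun z : ι → Bool => FF (ev c fun i => sg (z i))

/-- One step of the chain. -/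
theorem eta_rot (c : Finset ι → ℝ) (d : ℕ) (hd : ∀ S, d < #S → c S = 0) (τ : ℝ)
    (hτ : ∀ k, inf c k ≤ τ) (φ : ℝ) :
    Ex (fun x => 1 - FF (ev c (pt (rot ι φ) x)) ^ 2) ≤
      etaP c + 31 / 3 * 3 ^ d * √τ * tinf c + 1 / 24 * 3 ^ d * √τ * tinf c := by
  have h1 := lindeberg c d hd τ hτ π (rot_good (ι := ι) φ) (rot_good (ι := ι) 0)
  have h2 : etaP c = Ex (fun x => 1 - FF (ev c (pt (rot ι 0) x)) ^ 2) := by
    unfold etaP
    rw [← Ex_fst]
    simp only [pt_rot_zero]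
  rw [h2]
  simp only [one_sub_FF_sq]
  rw [Ex_div_const, Ex_div_const, Ex_add, Ex_add]
  have h3 : |π| ^ 3 ≤ 31 + 1 / 8 := by
    rw [abs_of_pos pi_pos]
    have h4 : π ≤ 3.1416 := by linarith [pi_lt_d4]
    calc π ^ 3 ≤ 3.1416 ^ 3 := pow_le_pow_left₀ pi_pos.le h4 3
      _ ≤ 31 + 1 / 8 := by norm_num
  have h5 : 0 ≤ 3 ^ d * √τ * tinf c := by
    have := tinf_nonneg c
    positivity
  have h6 : 2 / 3 * |π| ^ 3 * 3 ^ d * √τ * tinf c ≤
      2 / 3 * (31 + 1 / 8) * (3 ^ d * √τ * tinf c) := by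
    have := mul_le_mul_of_nonneg_right h3 h5
    nlinarith
  have h7 := (le_abs_self _).trans (h1.trans h6)
  linarith

/-- **The chain**: the conclusion on the cube. -/
theorem chain (c : Finset ι → ℝ) (d : ℕ) (hd : ∀ S, d < #S → c S = 0) (τ : ℝ)
    (hτ : ∀ k, inf c k ≤ τ) (j : ℕ) (hj : 0 < j) :
    1 - etaP c - muP c ^ 2 ≤
      π ^ 4 / (32 * j) * tinf c + 2 * j * etaP c + 21 * j * (3 ^ d * √τ * tinf c) := by
  set θ : ℝ := π / (2 * j) with hθ
  have hj0 : (0 : ℝ) < j := by exact_mod_cast hj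
  set X : ℕ → (ι → Bool × Bool) → ℝ := fun i x => ev c (pt (rot ι (i * θ)) x) with hX
  have hX0 : ∀ x, X 0 x = ev c fun i => sg (x i).1 := by
    intro x
    simp only [hX, Nat.cast_zero, zero_mul, pt_rot_zero]
  have hXj : ∀ x, X j x = ev c fun i => sg (x i).2 := by
    intro x
    have : (j : ℝ) * θ = π / 2 := by
      rw [hθ]
      field_simp
    simp only [hX, this, pt_rot_pi_half]
  have herr : 0 ≤ 3 ^ d * √τ * tinf c := by
    have := tinf_nonneg c
    positivity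
  -- one step
  have hstep : ∀ i, Ex (fun x => |FF (X i x) - FF (X (i + 1) x)|) ≤
      π ^ 2 / 8 * θ ^ 2 * tinf c + 2 * etaP c + 21 * (3 ^ d * √τ * tinf c) := by
    intro i
    have e1 : Ex (fun x => |FF (X i x) - FF (X (i + 1) x)|) ≤
        Ex fun x => π ^ 2 / 8 * (X i x - X (i + 1) x) ^ 2 + (1 - FF (X i x) ^ 2) +
          (1 - FF (X (i + 1) x) ^ 2) := by
      refine Ex_mono fun x => ?_
      have h1 := abs_sub_le_sq (FF_abs (X i x)) (FF_abs (X (i + 1) x))
      have h2 := FF_sub_sq (X i x) (X (i + 1) x)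
      linarith
    rw [Ex_add, Ex_add, Ex_const_mul] at e1
    have e2 := Ex_rot_sub_sq c (i * θ) ((i + 1 : ℕ) * θ)
    have e3 : (i * θ - ((i + 1 : ℕ) : ℝ) * θ) ^ 2 = θ ^ 2 := by
      push_cast
      ring
    rw [e3] at e2
    have e4 := eta_rot c d hd τ hτ (i * θ)
    have e5 := eta_rot c d hd τ hτ ((i + 1 : ℕ) * θ)
    have e6 : 0 ≤ π ^ 2 / 8 := by positivity
    have e7 := mul_le_mul_of_nonneg_left e2 e6
    simp only [hX] at e1 ⊢
    refine e1.trans ?_
    nlinarith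
  -- the sum
  have hsum : Ex (fun x => |FF (X 0 x) - FF (X j x)|) ≤
      j * (π ^ 2 / 8 * θ ^ 2 * tinf c + 2 * etaP c + 21 * (3 ^ d * √τ * tinf c)) := by
    have e1 : ∀ x, |FF (X 0 x) - FF (X j x)| ≤
        ∑ i ∈ range j, |FF (X i x) - FF (X (i + 1) x)| := by
      intro x
      have := dist_le_range_sum_dist (fun i => FF (X i x)) j
      simpa only [Real.dist_eq] using this
    refine (Ex_mono e1).trans ?_
    rw [Ex_sum]
    refine (sum_le_sum fun i _ => hstep i).trans ?_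
    rw [sum_const, card_range, nsmul_eq_mul]
  -- the lower bound
  have hlow : 1 - etaP c - muP c ^ 2 ≤ Ex (fun x => |FF (X 0 x) - FF (X j x)|) := by
    have e1 : Ex (fun x => (FF (X 0 x) - FF (X j x)) ^ 2 / 2) ≤
        Ex (fun x => |FF (X 0 x) - FF (X j x)|) :=
      Ex_mono fun x => sq_half_le_abs (FF_abs _) (FF_abs _)
    refine le_trans (le_of_eq ?_) e1
    have e2 : ∀ x, (FF (X 0 x) - FF (X j x)) ^ 2 / 2 = 1 - (1 - FF (X 0 x) ^ 2) / 2 -
        (1 - FF (X j x) ^ 2) / 2 - FF (X 0 x) * FF (X j x) := fun x => by ring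
    rw [Ex_congr e2, Ex_sub, Ex_sub, Ex_sub, Ex_const, Ex_div_const, Ex_div_const]
    simp only [hX0, hXj]
    have e3 : Ex (fun x : ι → Bool × Bool => 1 - FF (ev c fun i => sg (x i).1) ^ 2) = etaP c :=
      Ex_fst fun z : ι → Bool => 1 - FF (ev c fun i => sg (z i)) ^ 2
    have e4 : Ex (fun x : ι → Bool × Bool => 1 - FF (ev c fun i => sg (x i).2) ^ 2) = etaP c :=
      Ex_snd fun z : ι → Bool => 1 - FF (ev c fun i => sg (z i)) ^ 2
    have e5 : Ex (fun x : ι → Bool × Bool => FF (ev c fun i => sg (x i).1) *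
        FF (ev c fun i => sg (x i).2)) = muP c * muP c :=
      Ex_halves (fun z : ι → Bool => FF (ev c fun i => sg (z i)))
        fun z : ι → Bool => FF (ev c fun i => sg (z i))
    rw [e3, e4, e5]
    ring
  refine hlow.trans (hsum.trans (le_of_eq ?_))
  rw [hθ]
  field_simp
  ring

end Vale.Agent.P318.H689
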