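import Mathlib.Analysis.SpecialFunctions.Trigonometric.Bounds
import Mathlib.Analysis.SpecialFunctions.Trigonometric.Deriv
import Mathlib.Algebra.BigOperators.Ring.Finset
import Mathlib.Tactic

/-!
# Multilinear polynomials on the cube: common definitions

`sg` sign of a bit, `Ex` average over a finite type, `ev c u` the multilinear polynomial with the
coefficients `c` at the real point `u`, `inf c k` the influence of `k`, `tinf c` the total influence.
-/

namespace Vale.Agent.P318.H689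

open Finset

/-- The sign of a bit. -/
def sg (b : Bool) : ℝ := if b then -1 else 1

@[simp] theorem sg_false : sg false = 1 := by simp [sg]
@[simp] theorem sg_true : sg true = -1 := by simp [sg]

theorem sg_mul_self (b : Bool) : sg b * sg b = 1 := by cases b <;> simp

theorem sg_sq (b : Bool) : sg b ^ 2 = 1 := by cases b <;> simp

/-- The average over a finite type. -/
noncomputable def Ex {Ω : Type*} [Fintype Ω] (f : Ω → ℝ) : ℝ := (∑ x, f x) / Fintype.card Ω

section Ex

variable {Ω : Type*} [Fintype Ω]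

theorem Ex_add (f g : Ω → ℝ) : Ex (fun x => f x + g x) = Ex f + Ex g := by
  simp only [Ex, sum_add_distrib, add_div]

theorem Ex_sub (f g : Ω → ℝ) : Ex (fun x => f x - g x) = Ex f - Ex g := by
  simp only [Ex, sum_sub_distrib, sub_div]

theorem Ex_neg (f : Ω → ℝ) : Ex (fun x => - f x) = - Ex f := by
  simp only [Ex, sum_neg_distrib, neg_div]

theorem Ex_const_mul (c : ℝ) (f : Ω → ℝ) : Ex (fun x => c * f x) = c * Ex f := by
  simp only [Ex, ← mul_sum, mul_div_assoc]

theorem Ex_mul_const (f : Ω → ℝ) (c : ℝ) : Ex (fun x => f x * c) = Ex f * c := by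
  simp only [mul_comm _ c, Ex_const_mul]

theorem Ex_div_const (f : Ω → ℝ) (c : ℝ) : Ex (fun x => f x / c) = Ex f / c := by
  simp only [div_eq_mul_inv, Ex_mul_const]

theorem Ex_const [Nonempty Ω] (c : ℝ) : Ex (fun _ : Ω => c) = c := by
  have h : (Fintype.card Ω : ℝ) ≠ 0 := by exact_mod_cast Fintype.card_ne_zero
  simp only [Ex, sum_const, card_univ, nsmul_eq_mul]
  field_simp

theorem Ex_sum {J : Type*} (s : Finset J) (f : J → Ω → ℝ) :
    Ex (fun x => ∑ j ∈ s, f j x) = ∑ j ∈ s, Ex (f j) := by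
  simp only [Ex, ← sum_div]
  rw [sum_comm]

theorem Ex_mono {f g : Ω → ℝ} (h : ∀ x, f x ≤ g x) : Ex f ≤ Ex g := by
  unfold Ex
  gcongr
  exact h _

theorem Ex_congr {f g : Ω → ℝ} (h : ∀ x, f x = g x) : Ex f = Ex g := by
  rw [funext h]

theorem Ex_nonneg {f : Ω → ℝ} (h : ∀ x, 0 ≤ f x) : 0 ≤ Ex f := by
  unfold Ex
  exact div_nonneg (sum_nonneg fun x _ => h x) (Nat.cast_nonneg _)

theorem abs_Ex_le (f : Ω → ℝ) : |Ex f| ≤ Ex fun x => |f x| := by
  unfold Ex
  rw [abs_div, Nat.abs_cast]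
  gcongr
  exact abs_sum_le_sum_abs _ _

theorem Ex_equiv {Ω' : Type*} [Fintype Ω'] (e : Ω ≃ Ω') (f : Ω' → ℝ) :
    Ex (fun x => f (e x)) = Ex f := by
  unfold Ex
  rw [Equiv.sum_comp e f, Fintype.card_congr e]

/-- Cauchy-Schwarz for averages. -/
theorem Ex_mul_sq_le (f g : Ω → ℝ) :
    Ex (fun x => f x * g x) ^ 2 ≤ Ex (fun x => f x ^ 2) * Ex fun x => g x ^ 2 := by
  simp only [Ex]
  rw [div_pow, div_mul_div_comm, ← sq]
  exact div_le_div_of_nonneg_right (sum_mul_sq_le_sq_mul_sq univ f g) (sq_nonneg _)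

theorem Ex_mul_le_sqrt (f g : Ω → ℝ) :
    Ex (fun x => f x * g x) ≤
      Real.sqrt (Ex fun x => f x ^ 2) * Real.sqrt (Ex fun x => g x ^ 2) := by
  rw [← Real.sqrt_mul (Ex_nonneg fun x => sq_nonneg _)]
  exact Real.le_sqrt_of_sq_le (Ex_mul_sq_le f g)

end Ex

section prod

variable {ι : Type*} [Fintype ι] [DecidableEq ι] {Ω : Type*} [Fintype Ω]

/-- Averaging first over one coordinate. -/
theorem Ex_update (k : ι) (f : (ι → Ω) → ℝ) :
    Ex f = Ex fun x : ι → Ω => Ex fun y : Ω => f (Function.update x k y) := by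
  rcases isEmpty_or_nonempty Ω with hΩ | hΩ
  · have : IsEmpty (ι → Ω) := ⟨fun x => hΩ.elim (x k)⟩
    simp [Ex]
  · have hc : (Fintype.card Ω : ℝ) ≠ 0 := by exact_mod_cast Fintype.card_ne_zero
    have hs : ∑ p : (ι → Ω) × Ω, f (Function.update p.1 k p.2) =
        ∑ p : (ι → Ω) × Ω, f p.1 := by
      refine Fintype.sum_equiv
        ⟨fun p => (Function.update p.1 k p.2, p.1 k), fun p => (Function.update p.1 k p.2, p.1 k),
          fun p => ?_, fun p => ?_⟩ _ _ fun p => rfl
      · simp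
      · simp
    rw [Fintype.sum_prod_type, Fintype.sum_prod_type] at hs
    simp only [sum_const, card_univ, nsmul_eq_mul, ← mul_sum] at hs
    simp only [Ex]
    rw [← sum_div, hs]
    field_simp

end prod

/-! ### Multilinear polynomials -/

section poly

variable {ι : Type*} [Fintype ι] [DecidableEq ι]

/-- The multilinear polynomial with coefficients `c` at the point `u`. -/
noncomputable def ev (c : Finset ι → ℝ) (u : ι → ℝ) : ℝ := ∑ S : Finset ι, c S * ∏ k ∈ S, u k

/-- The influence of the coordinate `k`. -/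
noncomputable def inf (c : Finset ι → ℝ) (k : ι) : ℝ := ∑ S : Finset ι, if k ∈ S then c S ^ 2 else 0

/-- The total influence. -/
noncomputable def tinf (c : Finset ι → ℝ) : ℝ := ∑ S : Finset ι, (#S : ℝ) * c S ^ 2

omit [DecidableEq ι] in
theorem tinf_nonneg (c : Finset ι → ℝ) : 0 ≤ tinf c :=
  sum_nonneg fun S _ => mul_nonneg (Nat.cast_nonneg _) (sq_nonneg _)

theorem inf_nonneg (c : Finset ι → ℝ) (k : ι) : 0 ≤ inf c k :=
  sum_nonneg fun S _ => by split_ifs; exacts [sq_nonneg _, le_rfl]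

theorem sum_inf (c : Finset ι → ℝ) : ∑ k, inf c k = tinf c := by
  unfold inf tinf
  rw [sum_comm]
  refine sum_congr rfl fun S _ => ?_
  rw [sum_ite_mem, univ_inter, sum_const, nsmul_eq_mul]

end poly

end Vale.Agent.P318.H689
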