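import Vale.Agent.P318.H689.Cube

/-!
# Lindeberg replacement for `cos (ξ₁ P(u) + ξ₂ P(w))` (third order)
-/

namespace Vale.Agent.P318.H689

open Finset Real

/-! ### The scalar Taylor bound -/

theorem half_sq_sub_one_add_cos_nonneg (x : ℝ) : 0 ≤ cos x - 1 + x ^ 2 / 2 := by
  linarith [one_sub_sq_div_two_le_cos (x := x)]

theorem sub_half_sq_le_sin {x : ℝ} (hx : 0 ≤ x) : x - x ^ 2 / 2 ≤ sin x := by
  rcases le_total x 3 with h | h
  · have := sin_ge_sub_cube hx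
    nlinarith [mul_nonneg hx hx, mul_nonneg (mul_nonneg hx hx) (sub_nonneg.2 h)]
  · nlinarith [neg_one_le_sin x]

theorem cos_sub_one_add_le {x : ℝ} (hx : 0 ≤ x) : cos x - 1 + x ^ 2 / 2 ≤ x ^ 3 / 6 := by
  let f (t : ℝ) : ℝ := t ^ 3 / 6 - (cos t - 1 + t ^ 2 / 2)
  have hderiv (t : ℝ) : deriv f t = t ^ 2 / 2 + sin t - t := by
    simp (disch := fun_prop) [f]
    ring
  have hmono : MonotoneOn f (Set.Ici 0) := by
    apply monotoneOn_of_deriv_nonneg (convex_Ici 0) (by fun_prop) (by fun_prop)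
    intro t ht
    rw [interior_Ici] at ht
    rw [hderiv]
    linarith [sub_half_sq_le_sin (le_of_lt ht)]
  have h0 : f 0 ≤ f x := hmono (by simp) hx hx
  have : f 0 = 0 := by simp [f]
  rw [this] at h0
  simp only [f] at h0
  linarith

theorem abs_cos_sub_le (x : ℝ) : |cos x - 1 + x ^ 2 / 2| ≤ |x| ^ 3 / 6 := by
  rw [abs_of_nonneg (half_sq_sub_one_add_cos_nonneg x)]
  have := cos_sub_one_add_le (abs_nonneg x)
  rwa [cos_abs, sq_abs] at this

/-- Taylor expansion of the cosine to second order. -/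
theorem taylor_cos (a x : ℝ) :
    |cos (a + x) - (cos a - x * sin a - x ^ 2 / 2 * cos a)| ≤ |x| ^ 3 / 3 := by
  have h : cos (a + x) - (cos a - x * sin a - x ^ 2 / 2 * cos a) =
      cos a * (cos x - 1 + x ^ 2 / 2) + sin a * (x - sin x) := by
    rw [cos_add]; ring
  rw [h]
  have h1 : |cos a * (cos x - 1 + x ^ 2 / 2)| ≤ |x| ^ 3 / 6 := by
    rw [abs_mul]
    calc |cos a| * |cos x - 1 + x ^ 2 / 2| ≤ 1 * (|x| ^ 3 / 6) := by
          gcongr
          · exact abs_cos_le_one a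
          · exact abs_cos_sub_le x
      _ = _ := one_mul _
  have h2 : |sin a * (x - sin x)| ≤ |x| ^ 3 / 6 := by
    rw [abs_mul]
    calc |sin a| * |x - sin x| ≤ 1 * (|x| ^ 3 / 6) := by
          gcongr
          · exact abs_sin_le_one a
          · exact abs_sub_sin_le x
      _ = _ := one_mul _
  calc _ ≤ |cos a * (cos x - 1 + x ^ 2 / 2)| + |sin a * (x - sin x)| := abs_add_le _ _
    _ ≤ |x| ^ 3 / 3 := by linarith

/-! ### One coordinate -/

section one

variable {Ω : Type*} [Fintype Ω] [Nonempty Ω]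

theorem ex_taylor (A B₁ B₂ : ℝ) (a b : Ω → ℝ) (ha : Ex a = 0) (hb : Ex b = 0) :
    |Ex (fun y => cos (A + (a y * B₁ + b y * B₂))) -
      (cos A - (Ex (fun y => a y ^ 2) * B₁ ^ 2 + 2 * Ex (fun y => a y * b y) * B₁ * B₂ +
        Ex (fun y => b y ^ 2) * B₂ ^ 2) / 2 * cos A)| ≤
      Ex fun y => |a y * B₁ + b y * B₂| ^ 3 / 3 := by
  have h1 : (cos A - (Ex (fun y => a y ^ 2) * B₁ ^ 2 + 2 * Ex (fun y => a y * b y) * B₁ * B₂ +
        Ex (fun y => b y ^ 2) * B₂ ^ 2) / 2 * cos A) =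
      Ex fun y => (cos A - (a y * B₁ + b y * B₂) * sin A -
        (a y * B₁ + b y * B₂) ^ 2 / 2 * cos A) := by
    have h2 : ∀ y, (cos A - (a y * B₁ + b y * B₂) * sin A -
        (a y * B₁ + b y * B₂) ^ 2 / 2 * cos A) =
        cos A - (B₁ * sin A) * a y - (B₂ * sin A) * b y - (B₁ ^ 2 / 2 * cos A) * a y ^ 2 -
          (B₁ * B₂ * cos A) * (a y * b y) - (B₂ ^ 2 / 2 * cos A) * b y ^ 2 := fun y => by ring
    rw [Ex_congr h2, Ex_sub, Ex_sub, Ex_sub, Ex_sub, Ex_sub, Ex_const, Ex_const_mul, Ex_const_mul,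
      Ex_const_mul, Ex_const_mul, Ex_const_mul, ha, hb]
    ring
  rw [h1, ← Ex_sub]
  refine (abs_Ex_le _).trans (Ex_mono fun y => ?_)
  exact taylor_cos _ _

/-- Replacement of one pair of random variables by a pair with the same second moments. -/
theorem one_swap (A B₁ B₂ : ℝ) (a b a' b' : Ω → ℝ) (ha : Ex a = 0) (hb : Ex b = 0)
    (ha' : Ex a' = 0) (hb' : Ex b' = 0) (h1 : Ex (fun y => a y ^ 2) = Ex fun y => a' y ^ 2)
    (h2 : Ex (fun y => a y * b y) = Ex fun y => a' y * b' y)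
    (h3 : Ex (fun y => b y ^ 2) = Ex fun y => b' y ^ 2) :
    |Ex (fun y => cos (A + (a y * B₁ + b y * B₂))) -
      Ex (fun y => cos (A + (a' y * B₁ + b' y * B₂)))| ≤
      Ex (fun y => |a y * B₁ + b y * B₂| ^ 3 / 3) + Ex fun y => |a' y * B₁ + b' y * B₂| ^ 3 / 3 := by
  have e1 := ex_taylor A B₁ B₂ a b ha hb
  have e2 := ex_taylor A B₁ B₂ a' b' ha' hb'
  rw [← h1, ← h2, ← h3] at e2
  rw [abs_le] at *
  constructor <;> linarith [e1.1, e1.2, e2.1, e2.2]

end one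

end Vale.Agent.P318.H689
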