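import Vale.Agent.P318.H689.Lind

/-!
# Multilinear polynomials of independent random variables: moments, Bonami, Lindeberg
-/

namespace Vale.Agent.P318.H689

open Finset Real

variable {ι : Type*} [Fintype ι] [DecidableEq ι]

/-! ### The polynomial restricted to subsets of `A` -/

/-- The part of the polynomial which lives on subsets of `A`. -/
noncomputable def evA (A : Finset ι) (c : Finset ι → ℝ) (u : ι → ℝ) : ℝ :=
  ∑ S ∈ A.powerset, c S * ∏ k ∈ S, u k

omit [DecidableEq ι] in
theorem evA_univ (c : Finset ι → ℝ) (u : ι → ℝ) : evA univ c u = ev c u := by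
  unfold evA ev
  rw [powerset_univ]

omit [Fintype ι] [DecidableEq ι] in
theorem evA_empty (c : Finset ι → ℝ) (u : ι → ℝ) : evA ∅ c u = c ∅ := by
  simp [evA]

omit [Fintype ι] in
theorem evA_insert {A : Finset ι} {k : ι} (hk : k ∉ A) (c : Finset ι → ℝ) (u : ι → ℝ) :
    evA (insert k A) c u = evA A c u + u k * evA A (fun S => c (insert k S)) u := by
  unfold evA
  rw [sum_powerset_insert hk, mul_sum]
  congr 1
  refine sum_congr rfl fun S hS => ?_
  have hi : k ∉ S := fun hi => hk (mem_powerset.1 hS hi)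
  rw [prod_insert hi]
  ring

omit [Fintype ι] [DecidableEq ι] in
theorem evA_congr {A : Finset ι} {u u' : ι → ℝ} (h : ∀ i ∈ A, u i = u' i)
    (c : Finset ι → ℝ) : evA A c u = evA A c u' := by
  unfold evA
  refine sum_congr rfl fun S hS => ?_
  rw [prod_congr rfl fun i hi => h i (mem_powerset.1 hS hi)]

variable {Ω : Type*} [Fintype Ω]

/-- The point given by a system of random variables. -/
def pt (U : ι → Ω → ℝ) (x : ι → Ω) : ι → ℝ := fun i => U i (x i)

omit [Fintype ι] [Fintype Ω] in
theorem pt_update_ne (U : ι → Ω → ℝ) (x : ι → Ω) {k i : ι} (h : i ≠ k) (y : Ω) :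
    pt U (Function.update x k y) i = pt U x i := by
  simp [pt, h]

omit [Fintype ι] [Fintype Ω] in
theorem pt_update_same (U : ι → Ω → ℝ) (x : ι → Ω) (k : ι) (y : Ω) :
    pt U (Function.update x k y) k = U k y := by
  simp [pt]

omit [Fintype ι] [Fintype Ω] in
theorem evA_update {A : Finset ι} {k : ι} (hk : k ∉ A) (c : Finset ι → ℝ) (U : ι → Ω → ℝ)
    (x : ι → Ω) (y : Ω) : evA A c (pt U (Function.update x k y)) = evA A c (pt U x) :=
  evA_congr (fun i hi => pt_update_ne U x (by rintro rfl; exact hk hi) y) c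

/-- The bilinear moments. -/
theorem Ex_evA_mul [Nonempty Ω] (U W : ι → Ω → ℝ) (hU : ∀ i, Ex (U i) = 0)
    (hW : ∀ i, Ex (W i) = 0) (A : Finset ι) : ∀ c c' : Finset ι → ℝ,
    Ex (fun x => evA A c (pt U x) * evA A c' (pt W x)) =
      ∑ S ∈ A.powerset, c S * c' S * ∏ i ∈ S, Ex (fun y => U i y * W i y) := by
  induction A using Finset.induction_on with
  | empty =>
    intro c c'
    simp only [evA_empty, powerset_empty, sum_singleton, prod_empty, mul_one]
    exact Ex_const _
  | insert k A hk ih =>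
    intro c c'
    rw [Ex_update k, sum_powerset_insert hk]
    have h1 : ∀ x : ι → Ω, (Ex fun y => evA (insert k A) c (pt U (Function.update x k y)) *
        evA (insert k A) c' (pt W (Function.update x k y))) =
        evA A c (pt U x) * evA A c' (pt W x) + Ex (fun y => U k y * W k y) *
          (evA A (fun S => c (insert k S)) (pt U x) *
            evA A (fun S => c' (insert k S)) (pt W x)) := by
      intro x
      have h2 : ∀ y, evA (insert k A) c (pt U (Function.update x k y)) *
          evA (insert k A) c' (pt W (Function.update x k y)) =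
          evA A c (pt U x) * evA A c' (pt W x) +
          (evA A c (pt U x) * evA A (fun S => c' (insert k S)) (pt W x)) * W k y +
          (evA A (fun S => c (insert k S)) (pt U x) * evA A c' (pt W x)) * U k y +
          (evA A (fun S => c (insert k S)) (pt U x) *
            evA A (fun S => c' (insert k S)) (pt W x)) * (U k y * W k y) := by
        intro y
        rw [evA_insert hk, evA_insert hk, evA_update hk, evA_update hk, evA_update hk,
          evA_update hk, pt_update_same, pt_update_same]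
        ring
      rw [Ex_congr h2, Ex_add, Ex_add, Ex_add, Ex_const, Ex_const_mul, Ex_const_mul, Ex_const_mul,
        hU, hW]
      ring
    rw [Ex_congr h1, Ex_add, Ex_const_mul, ih, ih, mul_sum]
    congr 1
    refine sum_congr rfl fun S hS => ?_
    have hi : k ∉ S := fun hi => hk (mem_powerset.1 hS hi)
    rw [prod_insert hi]
    ring

/-- The hypotheses on the random variables. -/
structure Good (U : ι → Ω → ℝ) : Prop where
  m1 : ∀ i, Ex (U i) = 0
  m2 : ∀ i, Ex (fun y => U i y ^ 2) = 1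
  m3 : ∀ i, Ex (fun y => U i y ^ 3) = 0
  m4 : ∀ i, Ex (fun y => U i y ^ 4) ≤ 9

theorem Ex_evA_sq [Nonempty Ω] {U : ι → Ω → ℝ} (hU : Good U) (A : Finset ι)
    (c : Finset ι → ℝ) : Ex (fun x => evA A c (pt U x) ^ 2) = ∑ S ∈ A.powerset, c S ^ 2 := by
  have h := Ex_evA_mul U U hU.m1 hU.m1 A c c
  simp only [← sq, hU.m2, prod_const_one, mul_one] at h
  exact h

/-- The lemma of Bonami for independent random variables. -/
theorem bonamiA [Nonempty Ω] {U : ι → Ω → ℝ} (hU : Good U) (A : Finset ι) :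
    ∀ c : Finset ι → ℝ, Ex (fun x => evA A c (pt U x) ^ 4) ≤
      (∑ S ∈ A.powerset, 3 ^ #S * c S ^ 2) ^ 2 := by
  induction A using Finset.induction_on with
  | empty =>
    intro c
    simp only [evA_empty, powerset_empty, sum_singleton, card_empty, pow_zero, one_mul]
    rw [Ex_const]
    exact le_of_eq (by ring)
  | insert k A hk ih =>
    intro c
    rw [Ex_update k, sum_powerset_insert hk]
    set m4 := Ex (fun y => U k y ^ 4) with hm4
    have h1 : ∀ x : ι → Ω, (Ex fun y => evA (insert k A) c (pt U (Function.update x k y)) ^ 4) =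
        evA A c (pt U x) ^ 4 + 6 * (evA A c (pt U x) ^ 2 *
          evA A (fun S => c (insert k S)) (pt U x) ^ 2) +
          m4 * evA A (fun S => c (insert k S)) (pt U x) ^ 4 := by
      intro x
      have h2 : ∀ y, evA (insert k A) c (pt U (Function.update x k y)) ^ 4 =
          evA A c (pt U x) ^ 4 +
          (4 * evA A c (pt U x) ^ 3 * evA A (fun S => c (insert k S)) (pt U x)) * U k y +
          (6 * evA A c (pt U x) ^ 2 * evA A (fun S => c (insert k S)) (pt U x) ^ 2) * U k y ^ 2 +
          (4 * evA A c (pt U x) * evA A (fun S => c (insert k S)) (pt U x) ^ 3) * U k y ^ 3 +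
          evA A (fun S => c (insert k S)) (pt U x) ^ 4 * U k y ^ 4 := by
        intro y
        rw [evA_insert hk, evA_update hk, evA_update hk, pt_update_same]
        ring
      rw [Ex_congr h2, Ex_add, Ex_add, Ex_add, Ex_add, Ex_const, Ex_const_mul, Ex_const_mul,
        Ex_const_mul, Ex_const_mul, hU.m1, hU.m2, hU.m3, ← hm4]
      ring
    rw [Ex_congr h1, Ex_add, Ex_add, Ex_const_mul, Ex_const_mul]
    have hsum : ∑ S ∈ A.powerset, (3 : ℝ) ^ #(insert k S) * c (insert k S) ^ 2 =
        3 * ∑ S ∈ A.powerset, 3 ^ #S * c (insert k S) ^ 2 := by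
      rw [mul_sum]
      refine sum_congr rfl fun S hS => ?_
      have hi : k ∉ S := fun hi => hk (mem_powerset.1 hS hi)
      rw [card_insert_of_notMem hi, pow_succ]
      ring
    rw [hsum]
    set a := ∑ S ∈ A.powerset, (3 : ℝ) ^ #S * c S ^ 2 with ha
    set b := ∑ S ∈ A.powerset, (3 : ℝ) ^ #S * c (insert k S) ^ 2 with hb
    have ha0 : 0 ≤ a := sum_nonneg fun _ _ => by positivity
    have hb0 : 0 ≤ b := sum_nonneg fun _ _ => by positivity
    have h2 : Ex (fun x => evA A c (pt U x) ^ 4) ≤ a ^ 2 := ih c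
    have h3 : Ex (fun x => evA A (fun S => c (insert k S)) (pt U x) ^ 4) ≤ b ^ 2 := ih _
    have h4 : 0 ≤ Ex (fun x => evA A (fun S => c (insert k S)) (pt U x) ^ 4) :=
      Ex_nonneg fun x => by positivity
    have h5 : 0 ≤ Ex (fun x => evA A c (pt U x) ^ 4) := Ex_nonneg fun x => by positivity
    have h6 : Ex (fun x => evA A c (pt U x) ^ 2 *
        evA A (fun S => c (insert k S)) (pt U x) ^ 2) ≤ a * b := by
      have h7 := Ex_mul_sq_le (fun x => evA A c (pt U x) ^ 2)
        (fun x => evA A (fun S => c (insert k S)) (pt U x) ^ 2)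
      simp only [← pow_mul] at h7
      norm_num at h7
      refine abs_le_of_sq_le_sq' ?_ (mul_nonneg ha0 hb0) |>.2
      rw [mul_pow]
      exact h7.trans (mul_le_mul h2 h3 h4 (sq_nonneg _))
    have h8 : m4 * Ex (fun x => evA A (fun S => c (insert k S)) (pt U x) ^ 4) ≤ 9 * b ^ 2 :=
      (mul_le_mul_of_nonneg_right (hU.m4 k) h4).trans (mul_le_mul_of_nonneg_left h3 (by norm_num))
    nlinarith

/-- Bonami on the whole index set, with degree at most `d`. -/
theorem bonami [Nonempty Ω] {U : ι → Ω → ℝ} (hU : Good U) (c : Finset ι → ℝ) (d : ℕ)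
    (hd : ∀ S, d < #S → c S = 0) :
    Ex (fun x => ev c (pt U x) ^ 4) ≤ (3 ^ d * ∑ S, c S ^ 2) ^ 2 := by
  have h := bonamiA hU univ c
  simp only [evA_univ, powerset_univ] at h
  refine h.trans ?_
  have h0 : (0 : ℝ) ≤ ∑ S : Finset ι, 3 ^ #S * c S ^ 2 := sum_nonneg fun _ _ => by positivity
  refine pow_le_pow_left₀ h0 ?_ 2
  rw [mul_sum]
  refine sum_le_sum fun S _ => ?_
  rcases lt_or_ge d (#S) with h1 | h1
  · simp [hd S h1]
  · gcongr
    norm_num

theorem Ex_ev_sq [Nonempty Ω] {U : ι → Ω → ℝ} (hU : Good U) (c : Finset ι → ℝ) :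
    Ex (fun x => ev c (pt U x) ^ 2) = ∑ S, c S ^ 2 := by
  have h := Ex_evA_sq hU univ c
  simpa only [evA_univ, powerset_univ] using h

/-- Third absolute moment. -/
theorem Ex_abs_cube [Nonempty Ω] {U : ι → Ω → ℝ} (hU : Good U) (c : Finset ι → ℝ) (d : ℕ)
    (hd : ∀ S, d < #S → c S = 0) :
    Ex (fun x => |ev c (pt U x)| ^ 3) ≤ 3 ^ d * (∑ S, c S ^ 2) * √(∑ S, c S ^ 2) := by
  have h1 := Ex_mul_le_sqrt (fun x => |ev c (pt U x)|) fun x => ev c (pt U x) ^ 2
  have h2 : ∀ x : ι → Ω, |ev c (pt U x)| ^ 3 = |ev c (pt U x)| * ev c (pt U x) ^ 2 := by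
    intro x
    rw [← sq_abs]; ring
  rw [Ex_congr h2]
  refine h1.trans ?_
  have h3 : (Ex fun x => |ev c (pt U x)| ^ 2) = ∑ S, c S ^ 2 := by
    simp only [sq_abs]
    exact Ex_ev_sq hU c
  have h4 : √(Ex fun x => (ev c (pt U x) ^ 2) ^ 2) ≤ 3 ^ d * ∑ S, c S ^ 2 := by
    have h5 := bonami hU c d hd
    have h6 : (0 : ℝ) ≤ 3 ^ d * ∑ S, c S ^ 2 := by
      have : (0 : ℝ) ≤ ∑ S, c S ^ 2 := sum_nonneg fun _ _ => sq_nonneg _
      positivity
    simp only [← pow_mul]
    norm_num only
    calc √(Ex fun x => ev c (pt U x) ^ 4) ≤ √((3 ^ d * ∑ S, c S ^ 2) ^ 2) :=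
          Real.sqrt_le_sqrt h5
      _ = _ := Real.sqrt_sq h6
  rw [h3]
  calc √(∑ S, c S ^ 2) * √(Ex fun x => (ev c (pt U x) ^ 2) ^ 2) ≤
      √(∑ S, c S ^ 2) * (3 ^ d * ∑ S, c S ^ 2) := by gcongr
    _ = _ := by ring

/-! ### The replacement of one coordinate -/

/-- The part of the polynomial that depends on `k`. -/
noncomputable def cres (c : Finset ι → ℝ) (k : ι) (S : Finset ι) : ℝ := if k ∈ S then c S else 0

omit [Fintype ι] in
theorem cres_deg {c : Finset ι → ℝ} {d : ℕ} (hd : ∀ S, d < #S → c S = 0) (k : ι) :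
    ∀ S, d < #S → cres c k S = 0 := by
  intro S hS
  unfold cres
  rw [hd S hS, ite_self]

theorem sum_cres_sq (c : Finset ι → ℝ) (k : ι) : ∑ S, cres c k S ^ 2 = inf c k := by
  unfold cres inf
  refine sum_congr rfl fun S _ => ?_
  split_ifs <;> simp

/-- Split of the polynomial at the coordinate `k`. -/
theorem ev_split (c : Finset ι → ℝ) (k : ι) (u : ι → ℝ) :
    ev c u = evA (univ.erase k) c u + u k * evA (univ.erase k) (fun S => c (insert k S)) u := by
  rw [← evA_univ, ← insert_erase (mem_univ k), evA_insert (notMem_erase k univ)]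
  simp

theorem ev_cres (c : Finset ι → ℝ) (k : ι) (u : ι → ℝ) :
    ev (cres c k) u = u k * evA (univ.erase k) (fun S => c (insert k S)) u := by
  rw [ev_split _ k]
  have h1 : evA (univ.erase k) (cres c k) u = 0 := by
    unfold evA
    refine sum_eq_zero fun S hS => ?_
    have hi : k ∉ S := fun hi => notMem_erase k univ (mem_powerset.1 hS hi)
    simp [cres, hi]
  have h2 : (fun S => cres c k (insert k S)) = fun S => c (insert k S) := by
    funext S
    simp [cres]
  rw [h1, h2, zero_add]

/-- Replacement of the random variable at `k`. -/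
theorem swap [Nonempty Ω] (c : Finset ι → ℝ) (k : ι) (ξ : ℝ) {U U' : ι → Ω → ℝ}
    (hU : Good U) (hU' : Good U') (h : ∀ i, i ≠ k → U i = U' i) :
    |Ex (fun x => cos (ξ * ev c (pt U x))) - Ex (fun x => cos (ξ * ev c (pt U' x)))| ≤
      |ξ| ^ 3 / 3 * (Ex (fun x => |ev (cres c k) (pt U x)| ^ 3) +
        Ex (fun x => |ev (cres c k) (pt U' x)| ^ 3)) := by
  have hk : k ∉ (univ.erase k : Finset ι) := notMem_erase k univ
  have hpt : ∀ x : ι → Ω, ∀ c' : Finset ι → ℝ,
      evA (univ.erase k) c' (pt U' x) = evA (univ.erase k) c' (pt U x) := by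
    intro x c'
    refine evA_congr (fun i hi => ?_) c'
    simp only [pt]
    rw [h i (ne_of_mem_erase hi)]
  set R : (ι → Ω) → ℝ := fun x => evA (univ.erase k) c (pt U x) with hR
  set D : (ι → Ω) → ℝ := fun x => evA (univ.erase k) (fun S => c (insert k S)) (pt U x) with hD
  have e1 : ∀ (x : ι → Ω) (y : Ω), ev c (pt U (Function.update x k y)) = R x + U k y * D x := by
    intro x y
    rw [ev_split c k, pt_update_same, evA_update hk, evA_update hk]
  have e2 : ∀ (x : ι → Ω) (y : Ω), ev c (pt U' (Function.update x k y)) = R x + U' k y * D x := by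
    intro x y
    rw [ev_split c k, pt_update_same, evA_update hk, evA_update hk, hpt, hpt]
  have e3 : ∀ (x : ι → Ω) (y : Ω),
      ev (cres c k) (pt U (Function.update x k y)) = U k y * D x := by
    intro x y
    rw [ev_cres, pt_update_same, evA_update hk]
  have e4 : ∀ (x : ι → Ω) (y : Ω),
      ev (cres c k) (pt U' (Function.update x k y)) = U' k y * D x := by
    intro x y
    rw [ev_cres, pt_update_same, evA_update hk, hpt]
  rw [Ex_update k fun x => cos (ξ * ev c (pt U x)), Ex_update k fun x => cos (ξ * ev c (pt U' x)),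
    Ex_update k fun x => |ev (cres c k) (pt U x)| ^ 3,
    Ex_update k fun x => |ev (cres c k) (pt U' x)| ^ 3, ← Ex_sub, ← Ex_add, ← Ex_const_mul]
  refine (abs_Ex_le _).trans (Ex_mono fun x => ?_)
  have h1 := one_swap (ξ * R x) (ξ * D x) 0 (U k) (fun _ => 0) (U' k) (fun _ => 0) (hU.m1 k)
    (Ex_const 0) (hU'.m1 k) (Ex_const 0) ((hU.m2 k).trans (hU'.m2 k).symm) (by simp) rfl
  have f1 : (Ex fun y => cos (ξ * ev c (pt U (Function.update x k y)))) =
      Ex fun y => cos (ξ * R x + (U k y * (ξ * D x) + 0 * 0)) := by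
    refine Ex_congr fun y => ?_
    rw [e1]
    congr 1
    ring
  have f2 : (Ex fun y => cos (ξ * ev c (pt U' (Function.update x k y)))) =
      Ex fun y => cos (ξ * R x + (U' k y * (ξ * D x) + 0 * 0)) := by
    refine Ex_congr fun y => ?_
    rw [e2]
    congr 1
    ring
  rw [f1, f2]
  refine h1.trans (le_of_eq ?_)
  rw [mul_add, ← Ex_const_mul, ← Ex_const_mul]
  congr 1
  · refine Ex_congr fun y => ?_
    rw [e3]
    have : U k y * (ξ * D x) + 0 * 0 = ξ * (U k y * D x) := by ring
    rw [this, abs_mul, mul_pow]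
    ring
  · refine Ex_congr fun y => ?_
    rw [e4]
    have : U' k y * (ξ * D x) + 0 * 0 = ξ * (U' k y * D x) := by ring
    rw [this, abs_mul, mul_pow]
    ring

/-- The system which agrees with `U` on `A` and with `U'` off `A`. -/
def hyb (U U' : ι → Ω → ℝ) (A : Finset ι) : ι → Ω → ℝ := fun i => if i ∈ A then U i else U' i

omit [Fintype ι] in
theorem hyb_good {U U' : ι → Ω → ℝ} (hU : Good U) (hU' : Good U') (A : Finset ι) :
    Good (hyb U U' A) := by
  constructor <;> intro i <;> unfold hyb <;> split_ifs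
  exacts [hU.m1 i, hU'.m1 i, hU.m2 i, hU'.m2 i, hU.m3 i, hU'.m3 i, hU.m4 i, hU'.m4 i]

/-- **Lindeberg.** -/
theorem lindeberg [Nonempty Ω] (c : Finset ι → ℝ) (d : ℕ) (hd : ∀ S, d < #S → c S = 0) (τ : ℝ)
    (hτ : ∀ k, inf c k ≤ τ) (ξ : ℝ) {U U' : ι → Ω → ℝ} (hU : Good U) (hU' : Good U') :
    |Ex (fun x => cos (ξ * ev c (pt U x))) - Ex (fun x => cos (ξ * ev c (pt U' x)))| ≤
      2 / 3 * |ξ| ^ 3 * 3 ^ d * √τ * tinf c := by
  have key : ∀ A : Finset ι,
      |Ex (fun x => cos (ξ * ev c (pt (hyb U U' A) x))) -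
        Ex (fun x => cos (ξ * ev c (pt U' x)))| ≤
      2 / 3 * |ξ| ^ 3 * 3 ^ d * √τ * ∑ k ∈ A, inf c k := by
    intro A
    induction A using Finset.induction_on with
    | empty =>
      have : hyb U U' ∅ = U' := by
        funext i
        simp [hyb]
      rw [this]
      simp
    | insert k A hk ih =>
      have hs := swap c k ξ (hyb_good hU hU' (insert k A)) (hyb_good hU hU' A) (by
        intro i hi
        unfold hyb
        simp [hi])
      have hb : ∀ V : ι → Ω → ℝ, Good V →
          Ex (fun x => |ev (cres c k) (pt V x)| ^ 3) ≤ 3 ^ d * inf c k * √τ := by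
        intro V hV
        refine (Ex_abs_cube hV (cres c k) d (cres_deg hd k)).trans ?_
        rw [sum_cres_sq]
        have := inf_nonneg c k
        gcongr
        exact hτ k
      have h1 := hb _ (hyb_good hU hU' (insert k A))
      have h2 := hb _ (hyb_good hU hU' A)
      rw [sum_insert hk]
      have h3 : |Ex (fun x => cos (ξ * ev c (pt (hyb U U' (insert k A)) x))) -
          Ex (fun x => cos (ξ * ev c (pt (hyb U U' A) x)))| ≤
          2 / 3 * |ξ| ^ 3 * 3 ^ d * √τ * inf c k := by
        refine hs.trans ?_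
        have h4 : 0 ≤ |ξ| ^ 3 / 3 := by positivity
        calc _ ≤ |ξ| ^ 3 / 3 * (3 ^ d * inf c k * √τ + 3 ^ d * inf c k * √τ) :=
              mul_le_mul_of_nonneg_left (add_le_add h1 h2) h4
          _ = _ := by ring
      calc _ ≤ |Ex (fun x => cos (ξ * ev c (pt (hyb U U' (insert k A)) x))) -
          Ex (fun x => cos (ξ * ev c (pt (hyb U U' A) x)))| +
          |Ex (fun x => cos (ξ * ev c (pt (hyb U U' A) x))) -
            Ex (fun x => cos (ξ * ev c (pt U' x)))| := abs_sub_le _ _ _
        _ ≤ _ := by linarith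
  have h1 := key univ
  have h2 : hyb U U' univ = U := by
    funext i
    simp [hyb]
  rw [h2, sum_inf] at h1
  exact h1

end Vale.Agent.P318.H689
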